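import Vale.Agent.P042Lower.Core

/-! Constructors of residue blocks from finite checks. -/

open Finset

namespace Vale.Agent.P042Lower

lemma finite_check {m : ℕ} (hm : 0 < m) (R0 : List ℕ) (f : ℕ → ℕ)
    (hlt : ∀ x ∈ R0, x < m)
    (h : ∀ x ∈ R0, ∀ y ∈ R0, x ≠ y → f y ≤ f x → ∀ z ∈ List.range m, z * z % m ≠ (y + m - x) % m)
    {x y : ℕ} (hx : x ∈ R0) (hy : y ∈ R0) (hne : x ≠ y) (z : ℤ)
    (hz : (m : ℤ) ∣ z ^ 2 - ((y : ℤ) - x)) : f x < f y := by
  by_contra hcon
  push Not at hcon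
  have hm' : (m : ℤ) ≠ 0 := by positivity
  set r := (z % (m : ℤ)).toNat with hr
  have hrz : (r : ℤ) = z % m := Int.toNat_of_nonneg (Int.emod_nonneg _ hm')
  have hrlt : r < m := by
    have := Int.emod_lt_of_pos z (b := (m : ℤ)) (by exact_mod_cast hm)
    omega
  refine h x hx y hy hne hcon r (List.mem_range.mpr hrlt) ?_
  have hxm : x ≤ y + m := le_trans (hlt x hx).le (Nat.le_add_left _ _)
  show r * r ≡ y + m - x [MOD m]
  rw [Nat.modEq_iff_dvd, Nat.cast_sub hxm]
  push_cast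
  rw [hrz, Int.emod_def]
  obtain ⟨c, hc⟩ := hz
  exact ⟨1 - c + 2 * z * (z / m) - m * (z / m) * (z / m), by linear_combination -hc⟩

/-- A block given by an explicit list of residues modulo `s * s`. -/
def Block.direct (s : ℕ) (R0 : List ℕ) (f : ℕ → ℕ) (H : ℕ) (hs : 0 < s) (hH : 0 < H)
    (hlt : ∀ x ∈ R0, x < s * s ∧ f x < H)
    (h : ∀ x ∈ R0, ∀ y ∈ R0, x ≠ y → f y ≤ f x →
      ∀ z ∈ List.range (s * s), z * z % (s * s) ≠ (y + s * s - x) % (s * s)) : Block where
  s := s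
  R := R0.toFinset
  f := f
  H := H
  s_pos := hs
  H_pos := hH
  R_lt x hx := (hlt x (List.mem_toFinset.mp hx)).1
  f_lt x hx := (hlt x (List.mem_toFinset.mp hx)).2
  incr x hx y hy hne z hz :=
    finite_check (Nat.mul_pos hs hs) R0 f (fun a ha => (hlt a ha).1) h (List.mem_toFinset.mp hx)
      (List.mem_toFinset.mp hy) hne z (by push_cast; exact hz)

/-- The lift to modulus `s * s` of a list of residues modulo a squarefree `s`. -/
def Block.lift (s : ℕ) (R0 : List ℕ) (f : ℕ → ℕ) (H : ℕ) (hs : 0 < s) (hsq : Squarefree s)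
    (hH : 0 < H) (hlt : ∀ x ∈ R0, x < s ∧ f x < H)
    (h : ∀ x ∈ R0, ∀ y ∈ R0, x ≠ y → f y ≤ f x →
      ∀ z ∈ List.range s, z * z % s ≠ (y + s - x) % s) : Block where
  s := s
  R := (range (s * s)).filter fun x => x % s ∈ R0
  f x := f (x % s)
  H := H
  s_pos := hs
  H_pos := hH
  R_lt x hx := mem_range.mp (mem_filter.mp hx).1
  f_lt x hx := (hlt _ (mem_filter.mp hx).2).2
  incr x hx y hy hne z hz := by
    simp only [mem_filter, mem_range] at hx hy
    obtain ⟨c, hc⟩ := hz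
    by_cases hmod : x % s = y % s
    · exfalso
      obtain ⟨u, hu⟩ : (s : ℤ) ∣ (y : ℤ) - x := (Nat.modEq_iff_dvd (n := s) (a := x) (b := y)).mp hmod
      have h2 : (s : ℤ) ∣ z ^ 2 := ⟨u + s * c, by linear_combination hc + hu⟩
      have hzs : (s : ℤ) ∣ z :=
        ((Int.squarefree_natCast.mpr hsq).dvd_pow_iff_dvd two_ne_zero).mp h2
      obtain ⟨w, rfl⟩ := hzs
      have hd : ((s : ℤ) * s) ∣ (y : ℤ) - x := ⟨w ^ 2 - c, by linear_combination -hc⟩
      have : x ≡ y [MOD s * s] := Nat.modEq_iff_dvd.mpr (by push_cast; exact hd)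
      exact hne (Nat.ModEq.eq_of_lt_of_lt this hx.1 hy.1)
    · refine finite_check hs R0 f (fun a ha => (hlt a ha).1) h hx.2 hy.2 hmod z ?_
      refine ⟨(s : ℤ) * c + ((x : ℤ) / s - (y : ℤ) / s) * (-1), ?_⟩
      push_cast
      rw [Int.emod_def, Int.emod_def]
      linear_combination hc

lemma Block.lift_card (s : ℕ) (R0 : List ℕ) (f : ℕ → ℕ) (H : ℕ) (hs hsq hH hlt h) :
    (Block.lift s R0 f H hs hsq hH hlt h).R.card = s * R0.toFinset.card := by
  show ((range (s * s)).filter fun x => x % s ∈ R0).card = _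
  rw [show s * R0.toFinset.card = (range s ×ˢ R0.toFinset).card by simp]
  symm
  refine card_nbij' (fun p => p.2 + s * p.1) (fun x => (x / s, x % s)) ?_ ?_ ?_ ?_
  · rintro ⟨q, r⟩ hp
    simp only [coe_product, Set.mem_prod, mem_coe, mem_range, List.mem_toFinset] at hp
    have hr : r < s := (hlt r hp.2).1
    simp only [mem_coe, mem_filter, mem_range, Nat.add_mul_mod_self_left,
      Nat.mod_eq_of_lt hr]
    refine ⟨?_, hp.2⟩
    have := Nat.mul_le_mul_left s hp.1
    linarith [Nat.mul_succ s q]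
  · intro x hx
    simp only [mem_coe, mem_filter, mem_range] at hx
    simp only [coe_product, Set.mem_prod, mem_coe, mem_range, List.mem_toFinset]
    exact ⟨Nat.div_lt_of_lt_mul hx.1, hx.2⟩
  · rintro ⟨q, r⟩ hp
    simp only [coe_product, Set.mem_prod, mem_coe, mem_range, List.mem_toFinset] at hp
    have hr : r < s := (hlt r hp.2).1
    simp [Nat.add_mul_mod_self_left, Nat.mod_eq_of_lt hr, Nat.add_mul_div_left, hs,
      Nat.div_eq_of_lt hr]
  · intro x _
    exact Nat.mod_add_div x s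

end Vale.Agent.P042Lower
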