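import Mathlib

/-!
Square-difference-free sets from acyclic residue blocks with lexicographic rank potentials.
-/

open Finset

namespace Vale.Agent.P042Lower

/-- A residue block modulo `s * s`: a set of residues with a rank below `H` that increases along
square differences. -/
structure Block where
  s : ℕ
  R : Finset ℕ
  f : ℕ → ℕ
  H : ℕ
  s_pos : 0 < s
  H_pos : 0 < H
  R_lt : ∀ x ∈ R, x < s * s
  f_lt : ∀ x ∈ R, f x < H
  incr : ∀ x ∈ R, ∀ y ∈ R, x ≠ y → ∀ z : ℤ,
    ((s : ℤ) * s) ∣ z ^ 2 - ((y : ℤ) - x) → f x < f y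

namespace Block

variable (B : Block)

def M : ℕ := B.s * B.s

lemma M_pos : 0 < B.M := Nat.mul_pos B.s_pos B.s_pos

/-- Numbers below `M ^ L` all whose digits lie in the block. -/
def digits : ℕ → Finset ℕ
  | 0 => {0}
  | L + 1 => (B.R ×ˢ digits L).image fun p => p.1 + B.M * p.2

/-- Lexicographic rank, least significant digit first. -/
def pot : ℕ → ℕ → ℕ
  | 0, _ => 0
  | L + 1, x => B.f (x % B.M) * B.H ^ L + pot L (x / B.M)

lemma split {d q : ℕ} (hd : d ∈ B.R) :
    (d + B.M * q) % B.M = d ∧ (d + B.M * q) / B.M = q := by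
  have h : d < B.M := B.R_lt d hd
  exact ⟨by rw [Nat.add_mul_mod_self_left, Nat.mod_eq_of_lt h],
    by rw [Nat.add_mul_div_left _ _ B.M_pos, Nat.div_eq_of_lt h, zero_add]⟩

lemma digits_lt : ∀ L, ∀ x ∈ B.digits L, x < B.M ^ L := by
  intro L
  induction L with
  | zero => simp [digits]
  | succ L ih =>
    intro x hx
    simp only [digits, mem_image, mem_product] at hx
    obtain ⟨⟨d, q⟩, ⟨hd, hq⟩, rfl⟩ := hx
    have h : d < B.M := B.R_lt d hd
    have h2 : B.M * (q + 1) ≤ B.M * B.M ^ L := Nat.mul_le_mul_left _ (ih q hq)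
    rw [pow_succ']
    linarith [Nat.mul_succ B.M q]

lemma card_digits : ∀ L, (B.digits L).card = B.R.card ^ L := by
  intro L
  induction L with
  | zero => simp [digits]
  | succ L ih =>
    simp only [digits]
    rw [card_image_of_injOn, card_product, ih, pow_succ']
    rintro ⟨d, q⟩ h ⟨d', q'⟩ h' he
    simp only [mem_coe, mem_product] at h h'
    obtain ⟨a1, a2⟩ := B.split (q := q) h.1
    obtain ⟨b1, b2⟩ := B.split (q := q') h'.1
    simp only at he
    rw [he] at a1 a2
    simp [← a1, ← a2, b1, b2]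

lemma pot_lt : ∀ L, ∀ x ∈ B.digits L, B.pot L x < B.H ^ L := by
  intro L
  induction L with
  | zero => simp [pot]
  | succ L ih =>
    intro x hx
    simp only [digits, mem_image, mem_product] at hx
    obtain ⟨⟨d, q⟩, ⟨hd, hq⟩, rfl⟩ := hx
    obtain ⟨a1, a2⟩ := B.split (q := q) hd
    simp only [pot, a1, a2]
    have h1 : (B.f d + 1) * B.H ^ L ≤ B.H * B.H ^ L := Nat.mul_le_mul_right _ (B.f_lt d hd)
    rw [pow_succ']
    linarith [ih q hq, Nat.succ_mul (B.f d) (B.H ^ L)]

lemma pot_incr : ∀ L, ∀ x ∈ B.digits L, ∀ y ∈ B.digits L, x ≠ y → ∀ z : ℤ,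
    ((B.M : ℤ) ^ L) ∣ z ^ 2 - ((y : ℤ) - x) → B.pot L x < B.pot L y := by
  intro L
  induction L with
  | zero => simp [digits]
  | succ L ih =>
    intro x hx y hy hne z hz
    simp only [digits, mem_image, mem_product] at hx hy
    obtain ⟨⟨d, q⟩, ⟨hd, hq⟩, rfl⟩ := hx
    obtain ⟨⟨e, r⟩, ⟨he, hr⟩, rfl⟩ := hy
    obtain ⟨a1, a2⟩ := B.split (q := q) hd
    obtain ⟨b1, b2⟩ := B.split (q := r) he
    simp only [pot, a1, a2, b1, b2]
    obtain ⟨c, hc⟩ := hz
    push_cast at hc
    have hM : (B.M : ℤ) = (B.s : ℤ) * B.s := by simp [M]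
    by_cases hde : d = e
    · subst hde
      have hqr : q ≠ r := fun h => hne (by rw [h])
      have hdiv : (B.s : ℤ) ^ 2 ∣ z ^ 2 :=
        ⟨((r : ℤ) - q) + (B.M : ℤ) ^ L * c, by rw [pow_succ', hM] at hc; rw [hM]; linear_combination hc⟩
      obtain ⟨w, rfl⟩ := (Int.pow_dvd_pow_iff two_ne_zero).mp hdiv
      have hs : (B.s : ℤ) * B.s ≠ 0 := by
        have := B.s_pos
        positivity
      have := ih q hq r hr hqr w ⟨c, mul_left_cancel₀ hs (by
        rw [pow_succ', hM] at hc; rw [hM]; linear_combination hc)⟩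
      omega
    · have hf : B.f d < B.f e := B.incr d hd e he hde z
        ⟨((r : ℤ) - q) + (B.M : ℤ) ^ L * c, by rw [pow_succ', hM] at hc; rw [hM]; linear_combination hc⟩
      have h1 : (B.f d + 1) * B.H ^ L ≤ B.f e * B.H ^ L := Nat.mul_le_mul_right _ hf
      linarith [B.pot_lt L q hq, Nat.succ_mul (B.f d) (B.H ^ L)]

end Block

/-- From finitely many blocks with pairwise coprime moduli: a large square-difference-free subset
of the numbers below `T` times the product of the moduli. The quotient by that product is used as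
one more potential (the real place), which cancels the loss of the pigeonhole step. -/
theorem exists_large_set {ι : Type*} [Fintype ι] [DecidableEq ι] [Nonempty ι]
    (B : ι → Block) (L : ι → ℕ)
    (hcop : ∀ i j, i ≠ j → Nat.Coprime (B i).M (B j).M)
    (T : ℕ) (hT : ∀ i, (B i).H ^ L i ≤ T) :
    ∃ A : Finset ℕ, A ⊆ range (T * ∏ i, (B i).M ^ L i) ∧
      (∏ i, (B i).R.card ^ L i) ≤ A.card * (Fintype.card ι + 1) ∧
      ∀ a ∈ A, ∀ b ∈ A, ∀ n : ℕ, a < b → b - a ≠ n ^ 2 := by
  classical
  set N := ∏ i, (B i).M ^ L i with hN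
  let U := (range (T * N)).filter fun a => ∀ i, a % (B i).M ^ L i ∈ (B i).digits (L i)
  let F : ℕ → ℕ := fun a => (∑ i, (B i).pot (L i) (a % (B i).M ^ L i)) + a / N
  have hpos : ∀ i, 0 < (B i).M ^ L i := fun i => pow_pos (B i).M_pos _
  have hpair : Set.Pairwise (↑(univ : Finset ι))
      (Function.onFun Nat.Coprime fun i => (B i).M ^ L i) :=
    fun i _ j _ hij => Nat.Coprime.pow _ _ (hcop i j hij)
  have heq : ∀ a b, a < N → b < N → (∀ i, a % (B i).M ^ L i = b % (B i).M ^ L i) → a = b := by
    intro a b ha hb h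
    have hm : a ≡ b [MOD N] := by
      rw [hN]
      exact (Nat.modEq_iff_dvd).mpr (by
        push_cast
        refine Fintype.prod_dvd_of_coprime ?_ (fun i => by
          have := Nat.modEq_iff_dvd.mp (h i)
          push_cast at this
          exact this)
        intro i j hij
        have := Nat.Coprime.pow (L i) (L j) (hcop i j hij)
        have h2 : IsCoprime (((B i).M ^ L i : ℕ) : ℤ) (((B j).M ^ L j : ℕ) : ℤ) :=
          Nat.isCoprime_iff_coprime.mpr this
        simpa [Function.onFun] using h2)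
    exact Nat.ModEq.eq_of_lt_of_lt hm ha hb
  have hNpos : 0 < N := Finset.prod_pos fun i _ => hpos i
  have hdvd : ∀ i, (B i).M ^ L i ∣ N := fun i => Finset.dvd_prod_of_mem _ (mem_univ i)
  have hcard : T * (∏ i, (B i).R.card ^ L i) ≤ U.card := by
    calc _ = (range T ×ˢ Fintype.piFinset fun i => (B i).digits (L i)).card := by
          simp [Fintype.card_piFinset, Block.card_digits]
      _ ≤ _ := by
          let ch : (ι → ℕ) → ℕ := fun g =>
            (Nat.chineseRemainderOfFinset g (fun i => (B i).M ^ L i) univ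
              (fun i _ => (hpos i).ne') hpair).val
          have hch : ∀ g : ι → ℕ, ∀ i, g i < (B i).M ^ L i → ch g % (B i).M ^ L i = g i :=
            fun g i hg => Eq.trans ((Nat.chineseRemainderOfFinset g (fun i => (B i).M ^ L i) univ
              (fun i _ => (hpos i).ne') hpair).prop i (mem_univ i)) (Nat.mod_eq_of_lt hg)
          have hchlt : ∀ g, ch g < N := fun g =>
            Nat.chineseRemainderOfFinset_lt_prod g _ _ _
          have hsplit : ∀ q g i, (q * N + ch g) % (B i).M ^ L i = ch g % (B i).M ^ L i := by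
            intro q g i
            obtain ⟨c, hc⟩ := hdvd i
            rw [hc, ← mul_assoc, mul_comm q, mul_assoc, Nat.mul_add_mod]
          refine card_le_card_of_injOn (fun p => p.1 * N + ch p.2) ?_ ?_
          · rintro ⟨q, g⟩ hg
            simp only [coe_product, Set.mem_prod, mem_coe, Fintype.mem_piFinset, mem_range] at hg
            simp only [U, mem_coe, mem_filter, mem_range]
            refine ⟨?_, fun i => ?_⟩
            · have := Nat.mul_le_mul_right N hg.1
              linarith [hchlt g, Nat.succ_mul q N]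
            · rw [hsplit, hch g i ((B i).digits_lt _ _ (hg.2 i))]
              exact hg.2 i
          · rintro ⟨q, g⟩ hg ⟨q', g'⟩ hg' he
            simp only [coe_product, Set.mem_prod, mem_coe, Fintype.mem_piFinset, mem_range] at hg hg'
            simp only at he
            have hq : ∀ q g, (q * N + ch g) / N = q := fun q g => by
              rw [mul_comm, Nat.mul_add_div hNpos, Nat.div_eq_of_lt (hchlt g), add_zero]
            have hqq : q = q' := by rw [← hq q g, he, hq]
            subst hqq
            refine Prod.ext rfl (funext fun i => ?_)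
            show g i = g' i
            rw [← hch g i ((B i).digits_lt _ _ (hg.2 i)), ← hch g' i ((B i).digits_lt _ _ (hg'.2 i)),
              Nat.add_left_cancel he]
  have hmaps : ∀ a ∈ U, F a ∈ range ((Fintype.card ι + 1) * T) := by
    intro a ha
    simp only [U, mem_filter] at ha
    rw [mem_range]
    calc F a < (∑ _i : ι, T) + T := Nat.add_lt_add
          (Finset.sum_lt_sum_of_nonempty univ_nonempty fun i _ =>
            lt_of_lt_of_le ((B i).pot_lt _ _ (ha.2 i)) (hT i))
          (Nat.div_lt_of_lt_mul (by have := mem_range.mp ha.1; rwa [mul_comm] at this))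
      _ = _ := by simp [add_mul]
  have hTpos : 0 < T := by
    obtain ⟨i⟩ := ‹Nonempty ι›
    exact lt_of_lt_of_le (pow_pos (B i).H_pos _) (hT i)
  have hne : (range ((Fintype.card ι + 1) * T)).Nonempty := by
    rw [nonempty_range_iff]
    positivity
  obtain ⟨v, -, hv⟩ := exists_max_image (range ((Fintype.card ι + 1) * T))
    (fun v => (U.filter fun a => F a = v).card) hne
  refine ⟨U.filter fun a => F a = v, fun a ha => (mem_filter.mp (mem_filter.mp ha).1).1, ?_, ?_⟩
  · refine Nat.le_of_mul_le_mul_left (hcard.trans ?_) hTpos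
    rw [card_eq_sum_card_fiberwise (fun a ha => hmaps a ha)]
    refine (sum_le_card_nsmul _ _ _ hv).trans (le_of_eq ?_)
    simp only [card_range, smul_eq_mul]
    ring
  · intro a ha b hb n hab hsq
    simp only [U, mem_filter, mem_range] at ha hb
    have hle : ∀ i, (B i).pot (L i) (a % (B i).M ^ L i) ≤ (B i).pot (L i) (b % (B i).M ^ L i) := by
      intro i
      by_cases h : a % (B i).M ^ L i = b % (B i).M ^ L i
      · rw [h]
      · refine ((B i).pot_incr _ _ (ha.1.2 i) _ (hb.1.2 i) h (n : ℤ) ?_).le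
        have e : ((n : ℤ)) ^ 2 = (b : ℤ) - a := by
          rw [← Nat.cast_sub hab.le, hsq]; push_cast; ring
        rw [e]
        push_cast [Int.natCast_mod]
        exact ⟨(b : ℤ) / ((B i).M : ℤ) ^ L i - (a : ℤ) / ((B i).M : ℤ) ^ L i, by
          rw [Int.emod_def, Int.emod_def]; ring⟩
    have : F a < F b := by
      by_cases hall : ∀ i, a % (B i).M ^ L i = b % (B i).M ^ L i
      · refine Nat.add_lt_add_of_le_of_lt (Finset.sum_le_sum fun i _ => hle i) ?_
        have hmod : a % N = b % N := heq _ _ (Nat.mod_lt a hNpos) (Nat.mod_lt b hNpos) fun i => by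
          rw [Nat.mod_mod_of_dvd _ (hdvd i), Nat.mod_mod_of_dvd _ (hdvd i), hall i]
        refine lt_of_le_of_ne (Nat.div_le_div_right hab.le) fun hdiv => hab.ne ?_
        rw [← Nat.div_add_mod a N, ← Nat.div_add_mod b N, hmod, hdiv]
      · push Not at hall
        obtain ⟨i, hi⟩ := hall
        have hlt : (B i).pot (L i) (a % (B i).M ^ L i) < (B i).pot (L i) (b % (B i).M ^ L i) := by
          refine (B i).pot_incr _ _ (ha.1.2 i) _ (hb.1.2 i) hi (n : ℤ) ?_
          have e : ((n : ℤ)) ^ 2 = (b : ℤ) - a := by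
            rw [← Nat.cast_sub hab.le, hsq]; push_cast; ring
          rw [e]
          push_cast [Int.natCast_mod]
          exact ⟨(b : ℤ) / ((B i).M : ℤ) ^ L i - (a : ℤ) / ((B i).M : ℤ) ^ L i, by
            rw [Int.emod_def, Int.emod_def]; ring⟩
        exact Nat.add_lt_add_of_lt_of_le (Finset.sum_lt_sum (fun i _ => hle i) ⟨i, mem_univ i, hlt⟩)
          (Nat.div_le_div_right hab.le)
    omega

end Vale.Agent.P042Lower
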