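import Vale.Agent.P042Lower.Blocks

/-! The searched residue blocks. -/

namespace Vale.Agent.P042Lower

def block215 : Block := Block.lift 215 [1, 5, 7, 12, 16, 22, 55, 83, 92, 119, 139, 155, 189, 193, 206, 210, 213]
  (fun x => ([3, 8, 8, 7, 9, 10, 4, 1, 2, 7, 5, 10, 0, 9, 0, 1, 6] : List ℕ).getD (([1, 5, 7, 12, 16, 22, 55, 83, 92, 119, 139, 155, 189, 193, 206, 210, 213] : List ℕ).idxOf x) 0) 11
  (by norm_num) ((Nat.squarefree_mul (show Nat.Coprime 5 43 by decide)).mpr
    ⟨(show Nat.Prime 5 by norm_num).prime.squarefree, (show Nat.Prime 43 by norm_num).prime.squarefree⟩ : Squarefree (5 * 43)) (by norm_num)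
  (by decide +kernel) (by decide +kernel)

lemma card_block215 : block215.R.card = 3655 := by
  simp only [block215, Block.lift_card]
  decide +kernel

def block299 : Block := Block.lift 299 [7, 31, 36, 70, 90, 92, 121, 126, 143, 150, 168, 176, 198, 207, 223, 227, 229, 232, 265]
  (fun x => ([6, 4, 11, 11, 1, 1, 2, 7, 0, 4, 6, 13, 5, 8, 9, 10, 3, 12, 8] : List ℕ).getD (([7, 31, 36, 70, 90, 92, 121, 126, 143, 150, 168, 176, 198, 207, 223, 227, 229, 232, 265] : List ℕ).idxOf x) 0) 14
  (by norm_num) ((Nat.squarefree_mul (show Nat.Coprime 13 23 by decide)).mpr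
    ⟨(show Nat.Prime 13 by norm_num).prime.squarefree, (show Nat.Prime 23 by norm_num).prime.squarefree⟩ : Squarefree (13 * 23)) (by norm_num)
  (by decide +kernel) (by decide +kernel)

lemma card_block299 : block299.R.card = 5681 := by
  simp only [block299, Block.lift_card]
  decide +kernel

def block3 : Block := Block.lift 3 [0, 1]
  (fun x => ([0, 1] : List ℕ).getD (([0, 1] : List ℕ).idxOf x) 0) 2
  (by norm_num) ((show Nat.Prime 3 by norm_num).prime.squarefree) (by norm_num)
  (by decide +kernel) (by decide +kernel)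

lemma card_block3 : block3.R.card = 6 := by
  simp only [block3, Block.lift_card]
  decide +kernel

def block64 : Block := Block.direct 8 [0, 2, 5, 7, 11, 13, 14, 16, 17, 19, 22, 24, 25, 26, 31, 34, 37, 39, 40, 43, 45, 46, 48, 49, 51, 54, 56, 57, 58, 63]
  (fun x => ([4, 7, 0, 2, 8, 0, 1, 5, 6, 8, 1, 3, 6, 7, 2, 7, 0, 2, 4, 8, 0, 1, 3, 6, 8, 1, 5, 6, 7, 2] : List ℕ).getD (([0, 2, 5, 7, 11, 13, 14, 16, 17, 19, 22, 24, 25, 26, 31, 34, 37, 39, 40, 43, 45, 46, 48, 49, 51, 54, 56, 57, 58, 63] : List ℕ).idxOf x) 0) 9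
  (by norm_num) (by norm_num) (by decide +kernel) (by decide +kernel)

lemma card_block64 : block64.R.card = 30 := by decide +kernel

def block11 : Block := Block.lift 11 [0, 1, 4, 5]
  (fun x => ([0, 1, 2, 3] : List ℕ).getD (([0, 1, 4, 5] : List ℕ).idxOf x) 0) 4
  (by norm_num) ((show Nat.Prime 11 by norm_num).prime.squarefree) (by norm_num)
  (by decide +kernel) (by decide +kernel)

lemma card_block11 : block11.R.card = 44 := by
  simp only [block11, Block.lift_card]
  decide +kernel

def block31 : Block := Block.lift 31 [0, 1, 8, 5, 2, 9, 10]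
  (fun x => ([0, 1, 2, 3, 4, 5, 6] : List ℕ).getD (([0, 1, 8, 5, 2, 9, 10] : List ℕ).idxOf x) 0) 7
  (by norm_num) ((show Nat.Prime 31 by norm_num).prime.squarefree) (by norm_num)
  (by decide +kernel) (by decide +kernel)

lemma card_block31 : block31.R.card = 217 := by
  simp only [block31, Block.lift_card]
  decide +kernel

def block7 : Block := Block.lift 7 [0, 1, 2]
  (fun x => ([0, 1, 2] : List ℕ).getD (([0, 1, 2] : List ℕ).idxOf x) 0) 3
  (by norm_num) ((show Nat.Prime 7 by norm_num).prime.squarefree) (by norm_num)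
  (by decide +kernel) (by decide +kernel)

lemma card_block7 : block7.R.card = 21 := by
  simp only [block7, Block.lift_card]
  decide +kernel

def block19 : Block := Block.lift 19 [0, 1, 6, 17, 7]
  (fun x => ([0, 1, 2, 3, 4] : List ℕ).getD (([0, 1, 6, 17, 7] : List ℕ).idxOf x) 0) 5
  (by norm_num) ((show Nat.Prime 19 by norm_num).prime.squarefree) (by norm_num)
  (by decide +kernel) (by decide +kernel)

lemma card_block19 : block19.R.card = 95 := by
  simp only [block19, Block.lift_card]
  decide +kernel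

def block59 : Block := Block.lift 59 [0, 1, 20, 29, 27, 21, 46, 49, 36]
  (fun x => ([0, 1, 2, 3, 4, 5, 6, 7, 8] : List ℕ).getD (([0, 1, 20, 29, 27, 21, 46, 49, 36] : List ℕ).idxOf x) 0) 9
  (by norm_num) ((show Nat.Prime 59 by norm_num).prime.squarefree) (by norm_num)
  (by decide +kernel) (by decide +kernel)

lemma card_block59 : block59.R.card = 531 := by
  simp only [block59, Block.lift_card]
  decide +kernel

def block103 : Block := Block.lift 103 [0, 1, 29, 92, 2, 61, 17, 30, 93, 18, 19]
  (fun x => ([0, 1, 2, 3, 4, 5, 6, 7, 8, 9, 10] : List ℕ).getD (([0, 1, 29, 92, 2, 61, 17, 30, 93, 18, 19] : List ℕ).idxOf x) 0) 11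
  (by norm_num) ((show Nat.Prime 103 by norm_num).prime.squarefree) (by norm_num)
  (by decide +kernel) (by decide +kernel)

lemma card_block103 : block103.R.card = 1133 := by
  simp only [block103, Block.lift_card]
  decide +kernel

def block71 : Block := Block.lift 71 [0, 1, 37, 20, 6, 30, 9, 49, 38]
  (fun x => ([0, 1, 2, 3, 4, 5, 6, 7, 8] : List ℕ).getD (([0, 1, 37, 20, 6, 30, 9, 49, 38] : List ℕ).idxOf x) 0) 9
  (by norm_num) ((show Nat.Prime 71 by norm_num).prime.squarefree) (by norm_num)
  (by decide +kernel) (by decide +kernel)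

lemma card_block71 : block71.R.card = 639 := by
  simp only [block71, Block.lift_card]
  decide +kernel

def blocks : Fin 11 → Block :=
  ![block215, block299, block3, block64, block11, block31, block7, block19, block59, block103, block71]

def levels : Fin 11 → ℕ :=
  ![21, 19, 73, 23, 36, 26, 46, 31, 23, 21, 23]

end Vale.Agent.P042Lower
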